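import Crest.Agent.N255.Wn.En
import Crest.Agent.N255.Tp.Phi

/-!
# Row 255 (helper17): periods along walls.  Moving walls, exact cochains, Stokes across a cut.
All hypotheses only concern small simplices.
-/

set_option autoImplicit false
open Set

noncomputable section

namespace Crest.Agent.N255.Mv

open Tp Wn

variable {X : Type} [TopologicalSpace X] {k : Type} [Field k] {A : Type} [AddCommGroup A] [Module k A]
  {n i j d : ℕ} {𝒞 : Set (Set X)} {W W' F T : Set X}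
  {D : ∀ {n : ℕ} (j : ℕ) {i : ℕ}, Co k i X → Ch k n X →ₗ[k] Ch k j X}

/-- small simplices in `W` -/
abbrev Sw (𝒞 : Set (Set X)) (W : Set X) : Sb X := (On W).inf (Sm 𝒞)

theorem sw_mono (h : W ⊆ W') : (Sw 𝒞 W).Le (Sw 𝒞 W') :=
  Sb.le_inf (Sb.inf_le_left.trans (On_le h)) Sb.inf_le_right

theorem mem_sw {c : Ch k n X} (h : c ∈ (On W).ch k n) (h' : c ∈ (Sm 𝒞).ch k n) :
    c ∈ (Sw 𝒞 W).ch k n := Sml.mem_inf h h'

theorem on_le_sw {Y : Set X} (hY : Y ∈ 𝒞) (h : T ⊆ Y) (h' : T ⊆ W) : (On T).Le (Sw 𝒞 W) :=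
  Sb.le_inf (On_le h') ((On_le h).trans (On_le_Sm hY))

/-- locality on small simplices -/
theorem D_zero (hD : CapLike k X D) {τ : Co k i X} (h : τ ∈ (Sw 𝒞 W).van k k i) {c : Ch k n X}
    (hc : c ∈ (Sw 𝒞 W).ch k n) : D j τ c = 0 :=
  eq_zero_of_ch_empty (loc hD (P := Sw 𝒞 W) (fun _ ⟨h1, _, hY, h2⟩ =>
    Or.inl (Sb.van_mono (on_le_sw hY h2 h1) h)) hc)

theorem D_congr (hD : CapLike k X D) {τ τ' : Co k i X} (h : τ - τ' ∈ (Sw 𝒞 W).van k k i) {c : Ch k n X}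
    (hc : c ∈ (Sw 𝒞 W).ch k n) : D j τ c = D j τ' c := by
  rw [← sub_eq_zero, ← D_sub hD, D_zero hD h hc]

theorem D_sw (hD : CapLike k X D) (τ : Co k i X) {c : Ch k n X} (hc : c ∈ (Sw 𝒞 W).ch k n) :
    D j τ c ∈ (Sw 𝒞 W).ch k j :=
  mem_sw (hD.mem _ _ _ (Sb.ch_mono Sb.inf_le_left hc)) (D_sm hD τ (Sb.ch_mono Sb.inf_le_right hc))

theorem D_sum (hD : CapLike k X D) {ι : Type} (s : Finset ι) (x : ι → k) (τ : ι → Co k i X)
    (c : Ch k n X) : D j (∑ a ∈ s, x a • τ a) c = ∑ a ∈ s, x a • D j (τ a) c := by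
  classical
  induction s using Finset.induction_on with
  | empty => simpa using hD.zero' c
  | insert a s h ih => rw [Finset.sum_insert h, Finset.sum_insert h, hD.add, hD.smul, ih]

variable (ho : ∀ C ∈ 𝒞, IsOpen C) (hc : univ ⊆ ⋃₀ 𝒞)
include ho hc

theorem ev_RN_sm {u : Co A n X} (h : u ∈ (Sw 𝒞 W).Z k A n) (h' : u ∈ (Sw 𝒞 F).van k A n)
    {c : Ch k n X} (hr : c ∈ RN k W F n) (hs : c ∈ (Sm 𝒞).ch k n) : ev k u c = 0 := by
  rw [← Sb.ev_congr (exs_sub (𝒰 := 𝒞)) hs]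
  exact ev_RN (exs_Z ho ((subset_univ _).trans hc) h)
    (exs_van_of_sm ho ((subset_univ _).trans hc) h') hr

/-- periods vanish on small null chains of the pair -/
theorem per_RN (hD : CapLike k X D) (hij : i + j = n) {u : Co A j X} (h : u ∈ (Sw 𝒞 W).Z k A j)
    (h' : u ∈ (Sw 𝒞 F).van k A j) {η : Co k i X} (hη : η ∈ (Sw 𝒞 W).Z k k i) {c : Ch k n X}
    (hr : c ∈ RN k W F n) (hs : c ∈ (Sm 𝒞).ch k n) : ev k u (D j η c) = 0 := by
  refine ev_RN_sm ho hc h h' ?_ (D_sm hD η hs)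
  have e : D j (exs k 𝒞 η) c = D j η c := by
    rw [← sub_eq_zero, ← D_sub hD, loc_zero hD exs_sub hs]
  exact e ▸ D_RN hD hij (exs_Z ho ((subset_univ _).trans hc) hη) hr

/-- periods of exact cochains on small relative cycles vanish -/
theorem per_ex (hD : CapLike k X D) (hij : i + j = n) {u : Co A j X} (h : u ∈ (Sw 𝒞 W).Z k A j)
    (h' : u ∈ (Sw 𝒞 F).van k A j) {η : Co k (i + 1) X} (hη : η ∈ (Sw 𝒞 W).Ex k k (i + 1))
    {c : Ch k (n + 1) X} (h1 : c ∈ (Sw 𝒞 W).ch k (n + 1)) (h2 : bd k c ∈ (On F).ch k n) :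
    ev k u (D j η c) = 0 := by
  obtain ⟨θ, hθ⟩ := Sb.mem_Ex.1 hη
  rw [D_congr hD hθ h1]
  exact ev_RN_sm ho hc h h' (D_cob hD hij (hD.mem _ _ _ (Sb.ch_mono Sb.inf_le_left h1))
    (hD.mem _ _ _ h2)) (D_sm hD _ (Sb.ch_mono Sb.inf_le_right h1))

variable {s r : C(X, ℝ)} {a a' a₁ a₂ b b' b₁ b₂ R R₁ R₂ : ℝ} {O : Ori k (d + 1) X}
  {w w' : Ch k (d + 1) X}

theorem wr_sw (h : Wr O 𝒞 s r a b R w) (hs : w ∈ (Sm 𝒞).ch k (d + 1)) :
    w ∈ (Sw 𝒞 (win s a b)).ch k (d + 1) := mem_sw (h.mem ho hc).1 hs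

variable [T2Space X]

/-- **MOVE** inside one window -/
theorem move0 (hD : CapLike k X D) (hij : i + j = d + 1) {u : Co A j X}
    (h : u ∈ (Sw 𝒞 (win s a b)).Z k A j) (h' : u ∈ (Sw 𝒞 (fw s r a b R)).van k A j) {η : Co k i X}
    (hη : η ∈ (Sw 𝒞 (win s a b)).Z k k i) (hw : Wr O 𝒞 s r a b R w) (hw' : Wr O 𝒞 s r a b R w')
    (hs : w ∈ (Sm 𝒞).ch k (d + 1)) (hs' : w' ∈ (Sm 𝒞).ch k (d + 1)) :
    ev k u (D j η w) = ev k u (D j η w') := by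
  rw [← sub_eq_zero, ← map_sub, ← map_sub]
  exact per_RN ho hc hD hij h h' hη (hw.sub ho hc hw') (Submodule.sub_mem _ hs hs')

/-- **MOVE** between two subwindows -/
theorem move (hD : CapLike k X D) (hij : i + j = d + 1) (hK : IsCompact (box s r a b R)) {u : Co A j X}
    (h : u ∈ (Sw 𝒞 (win s a b)).Z k A j) (h' : u ∈ (Sw 𝒞 (fw s r a b R)).van k A j) {η : Co k i X}
    (hη : η ∈ (Sw 𝒞 (win s a b)).Z k k i) (h1 : a ≤ a₁) (h2 : b₁ ≤ b) (h3 : R ≤ R₁) (h4 : a ≤ a₂)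
    (h5 : b₂ ≤ b) (h6 : R ≤ R₂) (hw : Wr O 𝒞 s r a₁ b₁ R₁ w) (hw' : Wr O 𝒞 s r a₂ b₂ R₂ w')
    (hs : w ∈ (Sm 𝒞).ch k (d + 1)) (hs' : w' ∈ (Sm 𝒞).ch k (d + 1)) :
    ev k u (D j η w) = ev k u (D j η w') :=
  move0 ho hc hD hij h h' hη (hw.mono ho hc h1 h2 h3 hK) (hw'.mono ho hc h4 h5 h6 hK) hs hs'

omit [T2Space X] in
/-- **DIE** -/
theorem die (hD : CapLike k X D) (hij : i + j = d) {u : Co A j X}
    (h : u ∈ (Sw 𝒞 (win s a b)).Z k A j) (h' : u ∈ (Sw 𝒞 (fw s r a b R)).van k A j)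
    {η : Co k (i + 1) X} (hη : η ∈ (Sw 𝒞 (win s a b)).Ex k k (i + 1)) (hw : Wr O 𝒞 s r a b R w)
    (hs : w ∈ (Sm 𝒞).ch k (d + 1)) : ev k u (D j η w) = 0 :=
  per_ex ho hc hD hij h h' hη (wr_sw ho hc hw hs) (hw.mem ho hc).2

/-- **MOVE, then DIE** in a subwindow -/
theorem die' (hD : CapLike k X D) (hij : i + j = d) (hK : IsCompact (box s r a b R))
    (hK₂ : IsCompact (box s r a₂ b₂ R)) {u : Co A j X}
    (h : u ∈ (Sw 𝒞 (win s a b)).Z k A j) (h' : u ∈ (Sw 𝒞 (fw s r a b R)).van k A j)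
    {η : Co k (i + 1) X} (hη : η ∈ (Sw 𝒞 (win s a b)).Z k k (i + 1)) (h1 : a ≤ a₁) (h2 : b₁ ≤ b)
    (h3 : R ≤ R₁) (h4 : a ≤ a₂) (h5 : b₂ ≤ b) (h6 : a₂ < b₂)
    (hx : η ∈ (Sw 𝒞 (win s a₂ b₂)).Ex k k (i + 1)) (hw : Wr O 𝒞 s r a₁ b₁ R₁ w)
    (hs : w ∈ (Sm 𝒞).ch k (d + 1)) : ev k u (D j η w) = 0 := by
  obtain ⟨w', hs', hw'⟩ := exists_wr ho hc O h6 hK₂
  rw [move ho hc hD (by omega) hK h h' hη h1 h2 h3 h4 h5 le_rfl hw hw' hs hs']
  exact die ho hc hD hij (Sb.Z_mono (sw_mono (win_mono h4 h5)) h)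
    (Sb.van_mono (sw_mono (fw_mono h4 h5 le_rfl)) h') hx hw' hs'

omit [T2Space X] in
/-- Stokes for very small fundamental chains -/
theorem stokes0 (hD : CapLike k X D) (hij : i + j = d + 1) : ∃ v : kˣ, ∀ {s r : C(X, ℝ)}
    {a a' b' b R ε m m' : ℝ} {K : Set X} {z : Ch k (d + 2) X} {u : Co A j X} {η : Co k i X},
    0 < ε → a + ε ≤ m → m + ε ≤ a' → m ≤ m' → b' + ε ≤ m' → m' + ε ≤ b →
    win s a b \ K ⊆ fw s r a b R → z ∈ (Sm (cv 𝒞 s r ε)).ch k (d + 2) →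
    bd k z ∈ (On Kᶜ).ch k (d + 1) → u ∈ (Sw 𝒞 (win s a b)).Z k A j →
    u ∈ (Sw 𝒞 (fw s r a b R)).van k A j → η ∈ (Sw 𝒞 (lo s a')).Z k k i →
    η ∈ (Sw 𝒞 (hi s b')).Z k k i → ev k u (D j (cob k η) z) =
      (v : k) • (ev k u (D j η (wall (lo s m) z)) - ev k u (D j η (wall (lo s m') z))) := by
  obtain ⟨p, q, e⟩ := hD.bd hij
  obtain ⟨p', q', e'⟩ := (cD (k := k) (X := X)).bd (zero_add (d + 1))
  refine ⟨q⁻¹ * p * q', fun {s r a a' b' b R ε m m' K z u η} h0 h1 h2 h3 h4 h5 hF hz hb hu hu' l1 l2 => ?_⟩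
  have C1 := cut_win ho hc (s := s) (r := r) h0 h1 le_rfl le_rfl h2
  have C2 := cut_win ho hc (s := s) (r := r) h0 h4 le_rfl le_rfl h5
  have C3 := cut_win ho hc (s := s) (r := r) h0 h1 le_rfl h3 h5
  have sm : ∀ {m} (χ : Co k 0 X) {y : Ch k m X}, y ∈ (Sm (cv 𝒞 s r ε)).ch k m →
      cap' m χ y ∈ (Sm 𝒞).ch k m := fun χ _ hy => D_sm cD χ (Sb.ch_mono cv_le hy)
  have g1 : cut k (lo s m') - cut k (lo s m) ∈ (On (lo s m)).van k k 0 := fun σ h => by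
    simp [cut_one h, cut_one (h.trans (lo_mono h3))]
  have g2 : cut k (lo s m') - cut k (lo s m) ∈ (On (lo s m')ᶜ).van k k 0 := fun σ h => by
    simp [cut_zero h, cut_zero (h.trans (compl_subset_compl.2 (lo_mono h3)))]
  set χ := cut k (lo s m') - cut k (lo s m) with hχ
  have zL : D j (cob k η) (cap' (d + 2) (cut k (lo s m)) z) = 0 := D_zero hD l1 (mem_sw
    (loc_sm cD (T := univ) (fun Y hY => (C1.l Y hY).imp (fun h => van_mono h cut_van)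
      fun h => inter_subset_left.trans h) hz (mem_ch_univ z)) (sm _ hz))
  have zR : D j (cob k η) (cap' (d + 2) ((fun _ => 1) - cut k (lo s m')) z) = 0 := D_zero hD l2 (mem_sw
    (loc_sm cD (T := univ) (fun Y hY => (C2.r Y hY).imp (fun h => van_mono h one_sub_cut_van)
      fun h => inter_subset_left.trans h) hz (mem_ch_univ z)) (sm _ hz))
  have zM : cap' (d + 2) χ z ∈ (Sw 𝒞 (win s a b)).ch k (d + 2) :=
    mem_sw (loc_sm cD (C3.alt' g1 g2 inter_subset_left) hz (mem_ch_univ z)) (sm _ hz)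
  have zB : cap' (d + 1) χ (bd k z) ∈ (Sw 𝒞 (fw s r a b R)).ch k (d + 1) :=
    mem_sw (loc_sm cD (C3.alt' g1 g2 hF) (Sb.bd_mem hz) hb) (sm _ (Sb.bd_mem hz))
  have e1 : D j (cob k η) z = D j (cob k η) (cap' (d + 2) χ z) := by
    rw [D_sub cD, cap'_one, map_sub, sub_eq_zero] at zR
    rw [hχ, D_sub cD, map_sub, zL, sub_zero, zR]
  have e2 := congrArg (ev k u) (e η (cap' (d + 2) χ z))
  have e3 : bd k (cap' (d + 2) χ z) = (p' : k) • cap' (d + 1) χ (bd k z) +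
      (q' : k) • (wall (lo s m') z - wall (lo s m) z) := by
    rw [e' χ z, wall, wall, ← D_sub cD, ← map_sub (cob k)]
  rw [Sb.ev_B hu (Sb.bd_mem_B (D_sw hD η zM)), e3, ← e1] at e2
  simp only [map_add, map_smul, map_sub, Sb.ev_eq_zero hu' (D_sw hD η zB), smul_zero, zero_add] at e2
  have := congrArg (fun y => ((q⁻¹ : kˣ) : k) • y) (eq_neg_of_add_eq_zero_right e2.symm)
  simp only [smul_smul, Units.inv_mul, one_smul] at this
  rw [this, ← smul_neg, neg_sub, smul_smul]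
  simp [mul_assoc]

/-- the refinement of `𝒞` by three sets -/
def tri (𝒞 : Set (Set X)) (L W R : Set X) : Set (Set X) :=
  {Y | ∃ C ∈ 𝒞, Y = C ∩ L ∨ Y = C ∩ W ∨ Y = C ∩ R}

omit ho hc [T2Space X] in
theorem mem_tri {L W R : Set X} {σ : Sx n X} (h : σ ∈ (Sm 𝒞).S n)
    (h' : range σ ⊆ L ∨ range σ ⊆ W ∨ range σ ⊆ R) : σ ∈ (Sm (tri 𝒞 L W R)).S n := by
  obtain ⟨C, hC, h⟩ := h
  rcases h' with q | q | q
  exacts [⟨_, ⟨C, hC, .inl rfl⟩, subset_inter h q⟩, ⟨_, ⟨C, hC, .inr (.inl rfl)⟩, subset_inter h q⟩,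
    ⟨_, ⟨C, hC, .inr (.inr rfl)⟩, subset_inter h q⟩]

omit ho hc [T2Space X] in
theorem tri_le {L W R : Set X} : (Sm (tri 𝒞 L W R)).Le (Sm 𝒞) :=
  Sm_le (by rintro _ ⟨C, hC, rfl | rfl | rfl⟩ <;> exact ⟨C, hC, inter_subset_left⟩)

omit ho hc [T2Space X] in
/-- chains of the three zones -/
theorem ch_tri {L W R : Set X} {c : Ch k n X}
    (h : c ∈ (Sw 𝒞 L).ch k n ⊔ (Sw 𝒞 W).ch k n ⊔ (Sw 𝒞 R).ch k n) :
    c ∈ (Sm (tri 𝒞 L W R)).ch k n := by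
  refine (sup_le (sup_le ?_ ?_) ?_ : _ ≤ (Sm (tri 𝒞 L W R)).ch k n) h <;> refine Sb.ch_mono fun _ σ h => ?_
  exacts [mem_tri h.2 (.inl h.1), mem_tri h.2 (.inr (.inl h.1)), mem_tri h.2 (.inr (.inr h.1))]

/-- **CUT** (Stokes): `η` is closed left of `a'` and right of `b'` -/
theorem stokes (hD : CapLike k X D) (hij : i + j = d + 1) : ∃ v : kˣ, ∀ {O : Ori k (d + 1) X}
    {s r : C(X, ℝ)} {a a' b' b R : ℝ} {K : Set X} {z : Ch k (d + 2) X} {w w' : Ch k (d + 1) X}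
    {u : Co A j X} {η : Co k i X}, a < a' → a < b → b' < b → IsCompact K →
    win s a b \ K ⊆ fw s r a b R → z ∈ (Sm (tri 𝒞 (lo s a') (win s a b) (hi s b'))).ch k (d + 2) →
    O.Fund K z → u ∈ (Sw 𝒞 (win s a b)).Z k A j → u ∈ (Sw 𝒞 (fw s r a b R)).van k A j →
    η ∈ (Sw 𝒞 (lo s a')).Z k k i → η ∈ (Sw 𝒞 (hi s b')).Z k k i →
    Wr O 𝒞 s r a (min a' b) R w → Wr O 𝒞 s r (max b' a) b R w' → w ∈ (Sm 𝒞).ch k (d + 1) →
    w' ∈ (Sm 𝒞).ch k (d + 1) →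
    ev k u (D j (cob k η) z) = (v : k) • (ev k u (D j η w) - ev k u (D j η w')) := by
  obtain ⟨v, H⟩ := stokes0 (A := A) ho hc hD hij
  refine ⟨v, fun {O s r a a' b' b R K z w w' u η} h1 h2 h3 hK hF hz hf hu hu' l1 l2 hw hw' s1 s2 => ?_⟩
  set ε := min (min (a' - a) (b - a)) (b - b') / 4 with hε
  have e0 : 0 < ε := div_pos (lt_min (lt_min (by linarith) (by linarith)) (by linarith)) (by norm_num)
  have e1 : 4 * ε ≤ a' - a := by
    linarith [min_le_left (min (a' - a) (b - a)) (b - b'), min_le_left (a' - a) (b - a)]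
  have e2 : 4 * ε ≤ b - a := by
    linarith [min_le_left (min (a' - a) (b - a)) (b - b'), min_le_right (a' - a) (b - a)]
  have e3 : 4 * ε ≤ b - b' := by linarith [min_le_right (min (a' - a) (b - a)) (b - b')]
  obtain ⟨z', hz', hf'⟩ := fundS_holds k X (d + 1) O K (cv 𝒞 s r ε) hK cv_op
    ((subset_univ _).trans (cv_cov ho hc e0))
  have sz : z' ∈ (Sm 𝒞).ch k (d + 2) := Sb.ch_mono cv_le hz'
  have t1 : z' ∈ (Sm (tri 𝒞 (lo s a') (win s a b) (hi s b'))).ch k (d + 2) :=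
    Sb.ch_mono (P := Sm (cv 𝒞 s r ε)) (fun _ σ ⟨Y, hY, q⟩ => mem_tri (cv_le _ ⟨Y, hY, q⟩)
      ((cv_three hY (a := a) (a' := a') (b' := b' + ε) (b := b) (by linarith) (by linarith)).elim
        (fun h => .inl (q.trans h)) fun h => .inr (h.symm.imp q.trans fun h x hx =>
          show b' < s x by linarith [not_lo (h (q hx))]))) hz'
  have t2 := D_indep hD (𝒰 := tri 𝒞 (lo s a') (win s a b) (hi s b')) (W := win s a b) (j := j)
    (by
      rintro _ ⟨C, hC, rfl | rfl | rfl⟩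
      exacts [(ho C hC).inter isOpen_lo, (ho C hC).inter isOpen_win, (ho C hC).inter isOpen_hi])
    (fun x _ => by
      obtain ⟨C, hC, hx⟩ := hc (mem_univ x)
      by_cases q1 : s x < a'
      · exact ⟨_, ⟨C, hC, .inl rfl⟩, hx, q1⟩
      by_cases q2 : b' < s x
      · exact ⟨_, ⟨C, hC, .inr (.inr rfl)⟩, hx, q2⟩
      · exact ⟨_, ⟨C, hC, .inr (.inl rfl)⟩, hx, by linarith [not_lt.1 q1], by linarith [not_lt.1 q2]⟩)
    (ω := cob k η) (by omega) (by rw [Sb.mem_Z, cob_cob]; exact Submodule.zero_mem _)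
    (by
      rintro _ ⟨C, hC, rfl | rfl | rfl⟩
      exacts [.inl (Sb.van_mono (on_le_sw hC inter_subset_left inter_subset_right) l1),
        .inr inter_subset_right,
        .inl (Sb.van_mono (on_le_sw hC inter_subset_left inter_subset_right) l2)]) hF hz t1 hf hf'
  have t3 := ev_RN_sm ho hc hu hu' t2
    (Submodule.sub_mem _ (D_sm hD _ (Sb.ch_mono tri_le hz)) (D_sm hD _ sz))
  rw [map_sub, sub_eq_zero] at t3
  have f1 : win s a (min a' b) \ K ⊆ fw s r a (min a' b) R := fun x hx =>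
    ⟨(hF ⟨win_mono le_rfl (min_le_right _ _) hx.1, hx.2⟩).1, hx.1⟩
  have f2 : win s (max b' a) b \ K ⊆ fw s r (max b' a) b R := fun x hx =>
    ⟨(hF ⟨win_mono (le_max_right _ _) le_rfl hx.1, hx.2⟩).1, hx.1⟩
  rw [t3, H (m := a + ε) (m' := b - ε) e0 le_rfl (by linarith) (by linarith) (by linarith) (by linarith)
    hF hz' hf'.rc hu hu' l1 l2,
    move0 ho hc hD hij (Sb.Z_mono (sw_mono (win_mono le_rfl (min_le_right _ _))) hu)
      (Sb.van_mono (sw_mono (fw_mono le_rfl (min_le_right _ _) le_rfl)) hu')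
      (Sb.Z_mono (sw_mono (win_lo.trans (lo_mono (min_le_left _ _)))) l1)
      (wr_wall e0 le_rfl (le_min (by linarith) (by linarith)) hK f1 hz' hf') hw (D_sm cD _ sz) s1,
    move0 ho hc hD hij (Sb.Z_mono (sw_mono (win_mono (le_max_right _ _) le_rfl)) hu)
      (Sb.van_mono (sw_mono (fw_mono (le_max_right _ _) le_rfl le_rfl)) hu')
      (Sb.Z_mono (sw_mono (win_hi.trans (hi_mono (le_max_left _ _)))) l2)
      (wr_wall e0 (by rcases max_cases b' a with h | h <;> linarith [h.1]) (by linarith) hK f2 hz' hf')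
      hw' (D_sm cD _ sz) s2]

/-- **CUT**: `η` vanishes left of `a'` and equals the cocycle `h` right of `b'` -/
theorem cut_r (hD : CapLike k X D) (hij : i + j = d + 1) : ∃ v : kˣ, ∀ {O : Ori k (d + 1) X}
    {s r : C(X, ℝ)} {a a' b' b R a₂ b₂ R₂ : ℝ} {K : Set X} {z : Ch k (d + 2) X} {w : Ch k (d + 1) X}
    {u : Co A j X} {η h : Co k i X}, a < a' → a < b → b' < b → IsCompact (box s r a b R) → IsCompact K →
    win s a b \ K ⊆ fw s r a b R → z ∈ (Sm (tri 𝒞 (lo s a') (win s a b) (hi s b'))).ch k (d + 2) →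
    O.Fund K z → u ∈ (Sw 𝒞 (win s a b)).Z k A j → u ∈ (Sw 𝒞 (fw s r a b R)).van k A j →
    η ∈ (Sw 𝒞 (lo s a')).van k k i → η - h ∈ (Sw 𝒞 (hi s b')).van k k i →
    h ∈ (Sw 𝒞 (hi s b')).Z k k i → a ≤ a₂ → b' ≤ a₂ → b₂ ≤ b → R ≤ R₂ → Wr O 𝒞 s r a₂ b₂ R₂ w →
    w ∈ (Sm 𝒞).ch k (d + 1) → ev k u (D j (cob k η) z) = (v : k) • ev k u (D j h w) := by
  obtain ⟨v, H⟩ := stokes (A := A) ho hc hD hij
  refine ⟨-v, fun {O s r a a' b' b R a₂ b₂ R₂ K z w u η h} h1 h2 h3 hB hK hF hz hf hu hu' l1 l2 l3 g1 g2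
    g3 g4 hw s1 => ?_⟩
  obtain ⟨y, s2, hy⟩ := exists_wr ho hc O (lt_min h1 h2)
    (hB.of_isClosed_subset isClosed_box (box_mono le_rfl (min_le_right a' b) le_rfl))
  rw [H h1 h2 h3 hK hF hz hf hu hu' (Sb.van_le_Z l1)
      (by simpa using Submodule.add_mem _ (Sb.van_le_Z l2) l3) hy
      (hw.mono ho hc (max_le g2 g1) g3 g4
        (hB.of_isClosed_subset isClosed_box (box_mono (le_max_right b' a) le_rfl le_rfl))) s2 s1,
    D_zero hD (Sb.van_mono (sw_mono (win_lo.trans (lo_mono (min_le_left _ _)))) l1) (wr_sw ho hc hy s2),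
    D_congr hD (Sb.van_mono (sw_mono (win_hi.trans (hi_mono g2))) l2) (wr_sw ho hc hw s1)]
  simp

/-- **CUT**: `η` equals the cocycle `h` left of `a'` and vanishes right of `b'` -/
theorem cut_l (hD : CapLike k X D) (hij : i + j = d + 1) : ∃ v : kˣ, ∀ {O : Ori k (d + 1) X}
    {s r : C(X, ℝ)} {a a' b' b R a₁ b₁ R₁ : ℝ} {K : Set X} {z : Ch k (d + 2) X} {w : Ch k (d + 1) X}
    {u : Co A j X} {η h : Co k i X}, a < a' → a < b → b' < b → IsCompact (box s r a b R) → IsCompact K →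
    win s a b \ K ⊆ fw s r a b R → z ∈ (Sm (tri 𝒞 (lo s a') (win s a b) (hi s b'))).ch k (d + 2) →
    O.Fund K z → u ∈ (Sw 𝒞 (win s a b)).Z k A j → u ∈ (Sw 𝒞 (fw s r a b R)).van k A j →
    η - h ∈ (Sw 𝒞 (lo s a')).van k k i → η ∈ (Sw 𝒞 (hi s b')).van k k i →
    h ∈ (Sw 𝒞 (lo s a')).Z k k i → a ≤ a₁ → b₁ ≤ a' → b₁ ≤ b → R ≤ R₁ → Wr O 𝒞 s r a₁ b₁ R₁ w →
    w ∈ (Sm 𝒞).ch k (d + 1) → ev k u (D j (cob k η) z) = (v : k) • ev k u (D j h w) := by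
  obtain ⟨v, H⟩ := stokes (A := A) ho hc hD hij
  refine ⟨v, fun {O s r a a' b' b R a₁ b₁ R₁ K z w u η h} h1 h2 h3 hB hK hF hz hf hu hu' l1 l2 l3 g1 g2
    g3 g4 hw s1 => ?_⟩
  obtain ⟨y, s2, hy⟩ := exists_wr ho hc O (max_lt h3 h2)
    (hB.of_isClosed_subset isClosed_box (box_mono (le_max_right b' a) le_rfl le_rfl))
  rw [H h1 h2 h3 hK hF hz hf hu hu' (by simpa using Submodule.add_mem _ (Sb.van_le_Z l1) l3)
      (Sb.van_le_Z l2) (hw.mono ho hc g1 (le_min g2 g3) g4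
        (hB.of_isClosed_subset isClosed_box (box_mono le_rfl (min_le_right a' b) le_rfl))) hy s1 s2,
    D_zero hD (Sb.van_mono (sw_mono (win_hi.trans (hi_mono (le_max_left _ _)))) l2) (wr_sw ho hc hy s2),
    D_congr hD (Sb.van_mono (sw_mono (win_lo.trans (lo_mono g2))) l1) (wr_sw ho hc hw s1), map_zero,
    sub_zero]

omit ho hc [T2Space X] in
/-- only the part of the chain near the cut matters -/
theorem D_cob_part (hD : CapLike k X D) {L R' : Set X} {η : Co k i X} (l1 : η ∈ (Sw 𝒞 L).Z k k i)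
    (l2 : η ∈ (Sw 𝒞 R').Z k k i) {x y z : Ch k n X} (hx : x ∈ (Sw 𝒞 L).ch k n)
    (hz : z ∈ (Sw 𝒞 R').ch k n) : D j (cob k η) (x + y + z) = D j (cob k η) y := by
  rw [map_add, map_add, D_zero hD l1 hx, D_zero hD l2 hz, zero_add, add_zero]

end Crest.Agent.N255.Mv

end
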